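import Vale.Agent.P270.H766.GB.All

/-!
# P270: generalised abundance on projective bundles `P(L_0 ⊕ … ⊕ L_r) → Z`

`Z` is a compact connected complex manifold of dimension `n ≥ 1` with a Kähler metric `w` of
nonpositive holomorphic sectional curvature.

1. Let `π : X → Z` be the projective bundle of a direct sum of line bundles `L_0, …, L_r` on `Z`,
   `r ≥ 1`, `H` the tautological line bundle, `B = (1/m) div s`, `s` a nonzero section of
   `H^e ⊗ π^*N`, `(X, B)` klt, `m (r + 1) ≤ e` (i.e. `K_X + B` has degree `≥ 0` on the lines in the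
   fibres) and `M = H^f ⊗ π^*N'` nef. Then `K_X + B + M` is nef and numerically semiample, and it is
   semiample if some multiple of `B + M` is effective.
2. Let `(Z, G)` be klt, `G = (1/m) div s` effective, `s` a section of `D`, and `M` any nef line
   bundle on `Z` such that some multiple of `c K_Z + C G + M` is effective, for some `c, C ≥ 0`. Then
   `K_Z + G + t M` is semiample for all rational `t > 0`.
-/

open scoped Manifold ContDiff

noncomputable section

namespace Vale.Agent.Results.P270.BundlePairs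

open Vale.Agent.P272.K Vale.Agent.P285.H281.FD Vale.Agent.P285.H766.PB

theorem result (n : ℕ) (hn : 1 ≤ n) (Z : Type) [TopologicalSpace Z] [T2Space Z]
    [CompactSpace Z] [ConnectedSpace Z] [ChartedSpace (Cm n) Z] [IsManifold 𝓘(ℂ, Cm n) ω Z]
    (w : Chart n Z → Cm n → Matrix (Fin n) (Fin n) ℂ) (hw : IsKahler w) (hR : NonposHSC w) :
    (∀ r : ℕ, 1 ≤ r → ∀ (X : Type) [TopologicalSpace X] [T2Space X] [CompactSpace X]
      [ConnectedSpace X] [ChartedSpace (Cm (n + r)) X] [IsManifold 𝓘(ℂ, Cm (n + r)) ω X]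
      (w' : Chart (n + r) X → Cm (n + r) → Matrix (Fin (n + r)) (Fin (n + r)) ℂ), IsKahler w' →
      ∀ L : Fin (r + 1) → Bd Z, (∀ j, IsLB n (L j)) → ∀ (π : X → Z) (H : Bd X), IsLB (n + r) H →
      ∀ t : (j : Fin (r + 1)) → H.ι → (L j).ι → X → ℂ, IsPB n r L π H t →
      ∀ (N : Bd Z), IsLB n N → ∀ (e : ℕ) (s : H.ι × N.ι → X → ℂ),
      IsSec (n + r) ((H.pow e).mul (pull π N)) s → (∃ x, NZ ((H.pow e).mul (pull π N)) s x) →
      ∀ m : ℕ, 1 ≤ m → Klt (n + r) m ((H.pow e).mul (pull π N)) s → m * (r + 1) ≤ e →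
      ∀ (f : ℕ) (N' : Bd Z), IsLB n N' → Nef w' ((H.pow f).mul (pull π N')) →
        Nef w' (((Bd.can (n + r) X).pow m).mul (((H.pow e).mul (pull π N)).mul
          (((H.pow f).mul (pull π N')).pow m))) ∧
        NumSemiample (n + r) (((Bd.can (n + r) X).pow m).mul (((H.pow e).mul (pull π N)).mul
          (((H.pow f).mul (pull π N')).pow m))) ∧
        ((∃ k : ℕ, 1 ≤ k ∧ ∃ v, IsSec (n + r) ((((H.pow e).mul (pull π N)).mul
            (((H.pow f).mul (pull π N')).pow m)).pow k) v ∧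
            ∃ x, NZ ((((H.pow e).mul (pull π N)).mul
              (((H.pow f).mul (pull π N')).pow m)).pow k) v x) →
          Semiample (n + r) (((Bd.can (n + r) X).pow m).mul (((H.pow e).mul (pull π N)).mul
            (((H.pow f).mul (pull π N')).pow m))))) ∧
    (∀ D : Bd Z, IsLB n D → ∀ s, IsSec n D s → (∃ x, NZ D s x) → ∀ m : ℕ, 1 ≤ m → Klt n m D s →
      ∀ M : Bd Z, IsLB n M → Nef w M → ∀ c C k : ℕ, 1 ≤ k →
      ∀ u, IsSec n (((Bd.can n Z).pow c).mul ((D.pow C).mul (M.pow k))) u →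
      (∃ x, NZ (((Bd.can n Z).pow c).mul ((D.pow C).mul (M.pow k))) u x) →
      ∀ x y : ℕ, 1 ≤ x → 1 ≤ y →
        Semiample n (((Bd.can n Z).pow (x * m)).mul ((D.pow x).mul (M.pow y)))) := by
  refine ⟨fun r hr X _ _ _ _ _ _ w' hw' L hL π H hH t hX N hN e s hs h0 m hm hk he f N' hN' hM =>
    ?_, fun D hD s hs h0 m hm hk M hM hnef c C k hk1 u hu hu0 x y hx hy =>
    Vale.Agent.P270.H766.GB.gabEff n hn Z w hw hR D hD s hs h0 m hm hk M hM hnef c C k hk1 u hu hu0
      x y hx hy⟩
  exact Vale.Agent.P270.H766.GB.final hn hr hw hR hw'.toIsHermitian hL hN hH hX hm he hs h0 hk hN' hM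

end Vale.Agent.Results.P270.BundlePairs
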