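import Vale.Agent.P301.H450.HKLim

/-! P270: the generalised abundance conjecture on irreducible holomorphic symplectic manifolds. The
canonical bundle is trivial, so `D = K_X + B + M = B + M`. -/

open scoped Manifold ContDiff ComplexOrder Topology
open Filter Vale.Agent.P272.K Vale.Agent.P301.H599 Vale.Agent.P301.H99 Vale.Agent.P301.H450.HK

namespace Vale.Agent.Results.P270.HyperkahlerNef

/-- (1) Let `X` be a compact simply connected Kähler manifold of dimension `2n` with a holomorphic
symplectic form generating `H⁰(X, Ω²)`, that is, an irreducible holomorphic symplectic Kähler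
manifold, and `L` a line bundle on `X` such that (`IsPairV`): `c₁(L) ≠ 0`; `X` has an automorphism
`F` with `F^* c₁(L) = c₁(L)` and `(F^* - 1)² [w] = c c₁(L)`, `c > 0`, for a Kähler metric `w`, and
`(F^* - 1) c₁(V) = a c₁(L)`, `a ≠ 0`, for a line bundle `V`; the class of every line bundle on `X` is
a real combination of `c₁(L)` and `c₁(V)`, and an integral multiple of `c₁(L)` if it is a real
multiple of `c₁(L)`. Let `D` be a line bundle on `X` with `c₁(D) = c₁(E) + c₁(M)`, where the line
bundle `E` has a nonzero holomorphic section (`E = O(m B)`, `B ≥ 0` a `ℚ`-divisor) and the line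
bundle `M` is nef. Then `D` is nef and `c₁(D) = k c₁(L)` for an integer `k ≥ 0`. If `n = 2` or
`n = 3`, then `D` is trivial or has `n` algebraically independent sections.

(2) For every `d` there is `K > 0` with the following property. Let the pair `(X, L)` of a compact
complex manifold of dimension `d` and a line bundle be a limit of pairs `(Y k, M k)` (`IsLimit`): in
homeomorphisms `X ≃ Y k`, charts and transition functions of `(Y k, M k)` converge locally uniformly
to charts and transition functions of `(X, L)`. Let `D` be a line bundle on `X` with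
`a c₁(D) = b c₁(L)`, `a, b ≥ 0` integers.

(2a) If all `Y k` are irreducible holomorphic symplectic Kähler manifolds with an automorphism `F`
with `F^* c₁(M k) = c₁(M k)` and `(F^* - 1)² [w] = c c₁(M k)`, `c > 0`, for a Kähler metric `w`
(`IsPar`), then `D^(a K)` has a nonzero section.

(2b) If `d = 2n`, `n = 2` or `n = 3`, and the pairs `(Y k, M k)` are as in (1), then `D^(a m)` has at
least `binom(b m + n - 1, n - 1)` linearly independent holomorphic sections for every `m ≥ 0`. -/
theorem result :
    (∀ (n : ℕ) (X : Type) [TopologicalSpace X] [T2Space X] [CompactSpace X]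
      [SimplyConnectedSpace X] [ChartedSpace (Cm (2 * n)) X] [IsManifold 𝓘(ℂ, Cm (2 * n)) ω X]
      (ι : Type) (L : LineBundle (2 * n) X ι), IsPairV L →
      ∀ (μ : Type) (D : LineBundle (2 * n) X μ) (α : Type) (E : LineBundle (2 * n) X α)
        (β : Type) (M : LineBundle (2 * n) X β), IsSum D E M → Effective E → Nef M →
        Nef D ∧ (∃ k : ℕ, Proportional 1 D k L) ∧
          (n = 2 ∨ n = 3 → Trivial D ∨ HasAlgInd D n)) ∧
    (∀ d : ℕ, ∃ K : ℕ, 0 < K ∧
      ∀ (X : Type) [TopologicalSpace X] [T2Space X] [CompactSpace X]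
        [ChartedSpace (Cm d) X] [IsManifold 𝓘(ℂ, Cm d) ω X]
        (ι : Type) (L : LineBundle d X ι)
        (Y : ℕ → Type) [∀ k, TopologicalSpace (Y k)] [∀ k, T2Space (Y k)]
        [∀ k, CompactSpace (Y k)] [∀ k, SimplyConnectedSpace (Y k)]
        [∀ k, ChartedSpace (Cm d) (Y k)] [∀ k, IsManifold 𝓘(ℂ, Cm d) ω (Y k)]
        (κ : ℕ → Type) (M : ∀ k, LineBundle d (Y k) (κ k)), IsLimit L Y κ M →
        ∀ (μ : Type) (D : LineBundle d X μ) (a b : ℕ), Proportional a D b L →
          ((∀ k, IsPar (M k)) → HasInd D (a * K) 1) ∧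
          ∀ n : ℕ, d = 2 * n → n = 2 ∨ n = 3 → (∀ k, IsPairV (M k)) →
            ∀ m : ℕ, HasInd D (a * m) ((b * m + n - 1).choose (n - 1))) := by
  refine ⟨?_, ?_⟩
  · intro n X _ _ _ _ _ _ ι L hL μ D α E β M hD hE hM
    obtain ⟨k, hk⟩ := P301.H450.isoPow_of_sum hL hD hE hM
    exact P301.H450.alt_of_iso hL hk
  · intro d
    refine ⟨(P301.H450.Mb d).factorial, Nat.factorial_pos _, ?_⟩
    intro X _ _ _ _ _ ι L Y _ _ _ _ _ _ κ M hlim μ D a b hab
    refine ⟨fun hM => P301.H450.limit_hasInd hM hlim hab, ?_⟩
    intro n hd hn hM m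
    subst hd
    exact P301.H450.limit_growth hn hM hlim hab m

end Vale.Agent.Results.P270.HyperkahlerNef
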