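import Vale.Agent.P270.H450.OrbAll

/-!
# P270: generalised pairs with a hyperbolic orbifold divisor

Let `X` be a compact Kähler manifold, `D = D_1 + ... + D_k` a reduced divisor with simple normal
crossings, `μ_i ∈ {1, 2, ..., ∞}`, `B = ∑ β_i D_i + (1/m) div t`, `M` a class such that
`M - ∑ (1 - 1/μ_i - β_i) D_i` is nef, and suppose that `K_X + B + M` is nef. If the orbifold
`(X, ∑ (1 - 1/μ_i) D_i)` is hyperbolic, or its Kobayashi-Royden metric is nondegenerate at one point
(with a condition on rational curves, on `D`, or on the discs), then `(K_X + B + M)^n > 0`.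
-/

namespace Vale.Agent.Results.P270.LogKobayashi

open Vale.Agent.P270.H450

theorem result : OrbifoldNef := orbifoldNef

end Vale.Agent.Results.P270.LogKobayashi
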