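import Vale.Agent.P285.H281.FD.Final

/-!
# P270: generalised abundance on compact Kähler manifolds with nonpositive holomorphic sectional
curvature

`X` is a compact connected complex manifold of dimension `n ≥ 1` with a Kähler metric `w`.

1. Let the holomorphic sectional curvature of `w` be nonpositive, `(X, B)` klt, `B = (1/m) div s`
   effective, `s` a section of `D`, and `M` (`= L`) any nef line bundle. Then `K_X + B + M` is nef and
   numerically semiample, and it is semiample if some multiple of `B + M` is effective.
2. Let the holomorphic sectional curvature of `w` be nonpositive, or let the curvature form of `K_X`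
   be the part of `w` along a parallel distribution with flat complement (for instance
   `X = (T × Z)/G`, `T` a complex torus, `K_Z` ample, `G` finite acting diagonally and freely), and
   let `D` be any line bundle. If `K_X + t (1/m) D` is nef for one rational number `t = q / p > 1`,
   then `K_X + (1/m) D` is numerically semiample, and it is semiample if some multiple of `D` is
   effective.
-/

open scoped Manifold ContDiff

noncomputable section

namespace Vale.Agent.Results.P270.NonposHSCPairs

open Vale.Agent.P272.K Vale.Agent.P285.H281.FD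

theorem result (n : ℕ) (hn : 1 ≤ n) (X : Type) [TopologicalSpace X] [T2Space X] [CompactSpace X]
    [ConnectedSpace X] [ChartedSpace (Cm n) X] [IsManifold 𝓘(ℂ, Cm n) ω X]
    (w : Chart n X → Cm n → Matrix (Fin n) (Fin n) ℂ) (hw : IsKahler w)
    (D : Bd X) (hD : IsLB n D) (m : ℕ) (hm : 1 ≤ m) :
    (NonposHSC w → ∀ s, IsSec n D s → (∃ x, NZ D s x) → Klt n m D s →
      ∀ L : Bd X, IsLB n L → Nef w L →
        Nef w (((Bd.can n X).pow m).mul (D.mul (L.pow m))) ∧
        NumSemiample n (((Bd.can n X).pow m).mul (D.mul (L.pow m))) ∧
        ((∃ k : ℕ, 1 ≤ k ∧ ∃ t, IsSec n ((D.mul (L.pow m)).pow k) t ∧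
            ∃ x, NZ ((D.mul (L.pow m)).pow k) t x) →
          Semiample n (((Bd.can n X).pow m).mul (D.mul (L.pow m))))) ∧
    ((NonposHSC w ∨ ∃ k, FlatKernel w k) → ∀ p q : ℕ, p < q →
      Nef w (((Bd.can n X).pow (m * p)).mul (D.pow q)) →
        NumSemiample n (((Bd.can n X).pow m).mul D) ∧
        ((∃ k : ℕ, 1 ≤ k ∧ ∃ s, IsSec n (D.pow k) s ∧ ∃ x, NZ (D.pow k) s x) →
          Semiample n (((Bd.can n X).pow m).mul D))) :=
  p270 hn hw hD hm

end Vale.Agent.Results.P270.NonposHSCPairs
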